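import Vale.Agent.L1Bass.Defs
import Vale.Agent.L1Bass.Crit

/-!
Vanishing of the Hattori-Stallings coefficients of idempotent matrices over `ℓ¹(G)`, for an
arbitrary group `G`, at the class of every element `g` which has positive translation length in
an isometric action of `G` on a CAT(0) space, or which is undistorted with amenable centralizer.
-/

namespace Vale.Agent.Results.P184.HyperbolicVanishing

open Vale.Agent.L1Bass

universe u v

theorem result {G : Type u} [Group G] :
    (∀ g : G, (ActsHyperbolically.{u, v} g ∨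
        (Undistorted g ∧ Amenable (Subgroup.centralizer ({g} : Set G)))) →
      ∀ (q : ℕ) (e : Fin q → Fin q → G → ℂ), IsL1Matrix e → IsIdempotentMatrix e →
        hsCoeff e (ConjClasses.mk g) = 0) ∧
    ((∀ g : G, ¬ IsOfFinOrder g → (ActsHyperbolically.{u, v} g ∨
        (Undistorted g ∧ Amenable (Subgroup.centralizer ({g} : Set G))))) →
      {C : ConjClasses G | ∃ g, IsOfFinOrder g ∧ ConjClasses.mk g = C}.Finite →
      ∀ (q : ℕ) (e : Fin q → Fin q → G → ℂ), IsL1Matrix e → IsIdempotentMatrix e →
        ∃ F : Finset (ConjClasses G), (∀ C ∈ F, ∃ g, IsOfFinOrder g ∧ ConjClasses.mk g = C) ∧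
          ∀ C, C ∉ F → hsCoeff e C = 0) := by
  have main : ∀ g : G, (ActsHyperbolically.{u, v} g ∨
        (Undistorted g ∧ Amenable (Subgroup.centralizer ({g} : Set G)))) →
      ∀ (q : ℕ) (e : Fin q → Fin q → G → ℂ), IsL1Matrix e → IsIdempotentMatrix e →
        hsCoeff e (ConjClasses.mk g) = 0 := by
    rintro g (h | ⟨h1, h2⟩) q e he hid
    · exact vanish_of_hyperbolic g h e he hid
    · exact vanish_of_undistorted g h1 h2 e he hid
  refine ⟨main, ?_⟩
  intro hall hfin q e he hid
  refine ⟨hfin.toFinset, ?_, ?_⟩
  · intro C hC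
    simpa using hC
  · intro C hC
    obtain ⟨g, rfl⟩ := ConjClasses.exists_rep C
    have hg : ¬ IsOfFinOrder g := by
      intro hg
      apply hC
      rw [Set.Finite.mem_toFinset]
      exact ⟨g, hg, rfl⟩
    exact main g (hall g hg) q e he hid

end Vale.Agent.Results.P184.HyperbolicVanishing
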